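/-
Fixed-point affine arithmetic, written for fast evaluation by the kernel.

A natural number `x` stands for the real number `(x - B) / 2 ^ P` with `B = 2 ^ 48`, `P = 28`.
An affine form `⟨c, a0, a1, a2, a3, e⟩` stands for the set of reals
`c + a0 ξ0 + a1 ξ1 + a2 ξ2 + a3 ξ3 + δ`, with `|ξ i| ≤ 1` and `|δ| ≤ e / 2 ^ P`.
All operations are in continuation passing style, with explicit use of the arithmetic
primitives of `Nat`, and they force their results, so that no thunks pile up in the kernel.
-/

namespace Vale.Agent.Lib.P154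

/-- Affine form. -/
structure AF where
  c : Nat
  a0 : Nat
  a1 : Nat
  a2 : Nat
  a3 : Nat
  e : Nat

/-- Force a natural number to be evaluated. -/
def forceN {α : Type} (n : Nat) (k : Nat → α) : α :=
  Nat.casesOn n (k 0) (fun m => k (Nat.succ m))

/-- Product of two offset numbers: `(x - B) (y - B) / 2 ^ P + B`, rounded down, where the
large constant is `B ^ 2 + B 2 ^ P`. -/
def smul (x y : Nat) : Nat :=
  Nat.shiftRight
    (Nat.sub (Nat.add (Nat.mul x y) 79228238072128063507867369472)
      (Nat.mul 281474976710656 (Nat.add x y))) 28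

/-- Absolute value of an offset number. -/
noncomputable def sabs (x : Nat) : Nat :=
  Bool.rec (Nat.sub 281474976710656 x) (Nat.sub x 281474976710656) (Nat.ble 281474976710656 x)

/-- Bound on the noise part of an affine form. -/
noncomputable def AF.rad (x : AF) : Nat :=
  Nat.add (Nat.add (Nat.add (Nat.add (sabs x.a0) (sabs x.a1)) (sabs x.a2)) (sabs x.a3)) x.e

/-- Product of two plain numbers, rescaled. -/
def pmul (x y : Nat) : Nat := Nat.shiftRight (Nat.mul x y) 28

/-- Multiplication of affine forms. -/
noncomputable def AF.mulK (x y : AF) (k : AF → Bool) : Bool :=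
  forceN (sabs x.c) fun cx => forceN (AF.rad x) fun rx =>
  forceN (sabs y.c) fun cy => forceN (AF.rad y) fun ry =>
  Bool.rec false
    (forceN (smul x.c y.c) fun c =>
     forceN (Nat.sub (Nat.add (smul x.c y.a0) (smul y.c x.a0)) 281474976710656) fun a0 =>
     forceN (Nat.sub (Nat.add (smul x.c y.a1) (smul y.c x.a1)) 281474976710656) fun a1 =>
     forceN (Nat.sub (Nat.add (smul x.c y.a2) (smul y.c x.a2)) 281474976710656) fun a2 =>
     forceN (Nat.sub (Nat.add (smul x.c y.a3) (smul y.c x.a3)) 281474976710656) fun a3 =>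
     forceN (Nat.add (Nat.add (Nat.add (pmul cx y.e) (pmul cy x.e)) (pmul rx ry)) 12) fun e =>
     k ⟨c, a0, a1, a2, a3, e⟩)
    (Nat.ble (Nat.mul (Nat.add cx rx) (Nat.add cy ry)) 18889465931478580854784)

/-- Sum of two offset numbers. -/
def oadd (x y : Nat) : Nat := Nat.sub (Nat.add x y) 281474976710656

/-- Guard for the sum of two offset numbers. -/
def gadd (x y : Nat) : Bool := Nat.ble 281474976710656 (Nat.add x y)

/-- Difference of two offset numbers. -/
def osub (x y : Nat) : Nat := Nat.sub (Nat.add x 281474976710656) y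

/-- Guard for the difference of two offset numbers. -/
def gsub (x y : Nat) : Bool := Nat.ble y (Nat.add x 281474976710656)

/-- Five-fold conjunction. -/
noncomputable def and5 (a b c d e : Bool) : Bool :=
  Bool.rec false (Bool.rec false (Bool.rec false (Bool.rec false e d) c) b) a

/-- Addition of affine forms. -/
noncomputable def AF.addK (x y : AF) (k : AF → Bool) : Bool :=
  Bool.rec false
    (forceN (oadd x.c y.c) fun c =>
     forceN (oadd x.a0 y.a0) fun a0 =>
     forceN (oadd x.a1 y.a1) fun a1 =>
     forceN (oadd x.a2 y.a2) fun a2 =>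
     forceN (oadd x.a3 y.a3) fun a3 =>
     forceN (Nat.add x.e y.e) fun e =>
     k ⟨c, a0, a1, a2, a3, e⟩)
    (and5 (gadd x.c y.c) (gadd x.a0 y.a0) (gadd x.a1 y.a1) (gadd x.a2 y.a2) (gadd x.a3 y.a3))

/-- Subtraction of affine forms. -/
noncomputable def AF.subK (x y : AF) (k : AF → Bool) : Bool :=
  Bool.rec false
    (forceN (osub x.c y.c) fun c =>
     forceN (osub x.a0 y.a0) fun a0 =>
     forceN (osub x.a1 y.a1) fun a1 =>
     forceN (osub x.a2 y.a2) fun a2 =>
     forceN (osub x.a3 y.a3) fun a3 =>
     forceN (Nat.add x.e y.e) fun e =>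
     k ⟨c, a0, a1, a2, a3, e⟩)
    (and5 (gsub x.c y.c) (gsub x.a0 y.a0) (gsub x.a1 y.a1) (gsub x.a2 y.a2) (gsub x.a3 y.a3))

/-- Multiplication of an affine form by a constant (given as an offset number `q`). -/
noncomputable def AF.scalK (q : Nat) (x : AF) (k : AF → Bool) : Bool :=
  forceN (sabs q) fun cq => forceN (sabs x.c) fun cx => forceN (AF.rad x) fun rx =>
  Bool.rec false
    (forceN (smul q x.c) fun c =>
     forceN (smul q x.a0) fun a0 =>
     forceN (smul q x.a1) fun a1 =>
     forceN (smul q x.a2) fun a2 =>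
     forceN (smul q x.a3) fun a3 =>
     forceN (Nat.add (pmul cq x.e) 6) fun e =>
     k ⟨c, a0, a1, a2, a3, e⟩)
    (Nat.ble (Nat.mul cq (Nat.add cx rx)) 18889465931478580854784)

/-- Reciprocal of an affine form with positive values.  With `τ = 2 ^ (2 P) / c`, it uses
`1 / y = 2 τ - τ ^ 2 y + (1 - τ y) ^ 2 / y`. -/
noncomputable def AF.invK (x : AF) (k : AF → Bool) : Bool :=
  forceN (Nat.sub x.c 281474976710656) fun cv =>
  forceN (AF.rad x) fun rr =>
  Bool.rec false
    (forceN (Nat.div 72057594037927936 cv) fun tau =>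
     forceN (pmul tau tau) fun t2 =>
     forceN (pmul t2 cv) fun tc =>
     Bool.rec false
       (forceN (Nat.add (Nat.add (pmul tau rr) (Nat.shiftRight cv 28)) 2) fun w =>
        forceN (Nat.sub (Nat.add 281474976710656 (Nat.mul 2 tau)) tc) fun c =>
        forceN (Nat.sub 281474976710656 t2) fun q =>
        forceN (smul q x.a0) fun a0 =>
        forceN (smul q x.a1) fun a1 =>
        forceN (smul q x.a2) fun a2 =>
        forceN (smul q x.a3) fun a3 =>
        forceN (Nat.add (Nat.add (Nat.add (pmul t2 x.e)
          (Nat.div (Nat.mul w w) (Nat.sub cv rr))) (Nat.shiftRight (Nat.add cv rr) 28)) 12) fun e =>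
        k ⟨c, a0, a1, a2, a3, e⟩)
       (Bool.rec false
         (Bool.rec false
           (Nat.ble (Nat.mul t2 rr) 18889465931478580854784)
           (Nat.ble t2 281474976710656))
         (Nat.ble tc (Nat.add 281474976710656 (Nat.mul 2 tau)))))
    (Bool.rec false (Nat.ble (Nat.mul 4 rr) cv) (Nat.ble 281474976710657 x.c))

/-- Final test: all values of the affine form are nonnegative. -/
noncomputable def AF.nonnegB (x : AF) : Bool :=
  Nat.ble (Nat.add 281474976710656 (AF.rad x)) x.c

/-- Final test: all values of the affine form are negative. -/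
noncomputable def AF.negB (x : AF) : Bool :=
  Nat.ble (Nat.add (Nat.add x.c (AF.rad x)) 1) 281474976710656

/-- Arithmetic expressions with let-bindings, in de Bruijn style. -/
inductive Ex where
  | v (i : Nat) : Ex
  | c (q : Nat) : Ex
  | a (x y : Ex) : Ex
  | s (x y : Ex) : Ex
  | m (x y : Ex) : Ex
  | k (q : Nat) (x : Ex) : Ex
  | i (x : Ex) : Ex
  | l (x y : Ex) : Ex

/-- Look-up in a list of affine forms, with default value zero. -/
noncomputable def nthAF (env : List AF) : Nat → AF :=
  List.rec (motive := fun _ => Nat → AF)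
    (fun _ => AF.mk 281474976710656 281474976710656 281474976710656 281474976710656
      281474976710656 0)
    (fun h _ ih n => Nat.rec (motive := fun _ => AF) h (fun m _ => ih m) n) env

/-- Evaluation of an expression in affine arithmetic, in continuation passing style.
A failing guard makes the result `false`. -/
noncomputable def Ex.ev (e : Ex) : List AF → (AF → Bool) → Bool :=
  Ex.rec (motive := fun _ => List AF → (AF → Bool) → Bool)
    (fun i env k => k (nthAF env i))
    (fun q _ k => k (AF.mk q 281474976710656 281474976710656 281474976710656 281474976710656 0))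
    (fun _ _ ihx ihy env k => ihx env fun X => ihy env fun Y => AF.addK X Y k)
    (fun _ _ ihx ihy env k => ihx env fun X => ihy env fun Y => AF.subK X Y k)
    (fun _ _ ihx ihy env k => ihx env fun X => ihy env fun Y => AF.mulK X Y k)
    (fun q _ ihx env k => ihx env fun X => AF.scalK q X k)
    (fun _ ihx env k => ihx env fun X => AF.invK X k)
    (fun _ _ ihx ihy env k => ihx env fun X => ihy (List.cons X env) k)
    e

/-- A box: centers (offset numbers) and half-widths (plain numbers). -/
structure Bx where
  c0 : Nat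
  h0 : Nat
  c1 : Nat
  h1 : Nat
  c2 : Nat
  h2 : Nat
  c3 : Nat
  h3 : Nat

/-- The four coordinates of a box, as affine forms. -/
noncomputable def Bx.envK (b : Bx) (f : AF → AF → AF → AF → Bool) : Bool :=
  Bx.casesOn (motive := fun _ => Bool) b fun c0 h0 c1 h1 c2 h2 c3 h3 =>
    forceN (Nat.add 281474976710656 h0) fun a0 =>
    forceN (Nat.add 281474976710656 h1) fun a1 =>
    forceN (Nat.add 281474976710656 h2) fun a2 =>
    forceN (Nat.add 281474976710656 h3) fun a3 =>
    f (AF.mk c0 a0 281474976710656 281474976710656 281474976710656 0)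
      (AF.mk c1 281474976710656 a1 281474976710656 281474976710656 0)
      (AF.mk c2 281474976710656 281474976710656 a2 281474976710656 0)
      (AF.mk c3 281474976710656 281474976710656 281474976710656 a3 0)

/-- Certificate trees: `l` verifies the main expression on the box; `d j` shows that side
condition number `j` fails on the whole box; `s0`, ... , `s3` split along a coordinate. -/
inductive Tr where
  | l : Tr
  | d (j : Nat) : Tr
  | s0 (x y : Tr) : Tr
  | s1 (x y : Tr) : Tr
  | s2 (x y : Tr) : Tr
  | s3 (x y : Tr) : Tr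

/-- Half of a number, rounded up. -/
def hup (h : Nat) : Nat := Nat.shiftRight (Nat.add h 1) 1

/-- Look-up in a list of expressions, with default value zero. -/
noncomputable def nthEx (gs : List Ex) : Nat → Ex :=
  List.rec (motive := fun _ => Nat → Ex)
    (fun _ => Ex.c 281474976710656)
    (fun h _ ih n => Nat.rec (motive := fun _ => Ex) h (fun m _ => ih m) n) gs

/-- Splitting of one coordinate: `c`, `h` is the center and half-width of the interval; the
two functions get the new centers and the new half-width. -/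
noncomputable def splitK (c h : Nat) (f g : Nat → Nat → Bool) : Bool :=
  forceN (hup h) fun h' =>
  Bool.rec false
    (forceN (Nat.sub c h') fun cl =>
     forceN (Nat.add c h') fun cr =>
     Bool.rec false (g cr h') (f cl h'))
    (Nat.ble h' c)

/-- The checker for certificate trees.  `T` is the test on a leaf, and `gs` the list of side
conditions. -/
noncomputable def chk (T : AF → AF → AF → AF → Bool) (gs : List Ex) (t : Tr) : Bx → Bool :=
  Tr.rec (motive := fun _ => Bx → Bool)
    (fun b => Bx.envK b T)
    (fun j b => Bx.envK b fun x0 x1 x2 x3 =>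
      Ex.ev (nthEx gs j) (List.cons x0 (List.cons x1 (List.cons x2 (List.cons x3 List.nil)))) AF.negB)
    (fun _ _ ih1 ih2 b => Bx.casesOn (motive := fun _ => Bool) b fun c0 h0 c1 h1 c2 h2 c3 h3 =>
      splitK c0 h0 (fun c h => ih1 (Bx.mk c h c1 h1 c2 h2 c3 h3))
        (fun c h => ih2 (Bx.mk c h c1 h1 c2 h2 c3 h3)))
    (fun _ _ ih1 ih2 b => Bx.casesOn (motive := fun _ => Bool) b fun c0 h0 c1 h1 c2 h2 c3 h3 =>
      splitK c1 h1 (fun c h => ih1 (Bx.mk c0 h0 c h c2 h2 c3 h3))
        (fun c h => ih2 (Bx.mk c0 h0 c h c2 h2 c3 h3)))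
    (fun _ _ ih1 ih2 b => Bx.casesOn (motive := fun _ => Bool) b fun c0 h0 c1 h1 c2 h2 c3 h3 =>
      splitK c2 h2 (fun c h => ih1 (Bx.mk c0 h0 c1 h1 c h c3 h3))
        (fun c h => ih2 (Bx.mk c0 h0 c1 h1 c h c3 h3)))
    (fun _ _ ih1 ih2 b => Bx.casesOn (motive := fun _ => Bool) b fun c0 h0 c1 h1 c2 h2 c3 h3 =>
      splitK c3 h3 (fun c h => ih1 (Bx.mk c0 h0 c1 h1 c2 h2 c h))
        (fun c h => ih2 (Bx.mk c0 h0 c1 h1 c2 h2 c h)))
    t

end Vale.Agent.Lib.P154
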