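import Vale.Agent.Lib.P154.AFCore

/-! Generated programs for the two charts: expression trees and their direct versions. -/

namespace Vale.Agent.Lib.P154

namespace D2

/-- One term of the average over the six permutations, in direct form. -/
noncomputable def grp (v0 v1 v2 wa wb wc r r2 c1 c2 vwa vwb vwc sa sb sc ta tb tc : AF) (k : AF → Bool) : Bool :=
  AF.addK vwa vwb fun t1 =>
  AF.addK t1 vwc fun t2 =>
  AF.mulK r2 t2 fun t3 =>
  AF.scalK 281475782017024 t3 fun t4 =>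
  AF.addK (AF.mk 281475245146112 281474976710656 281474976710656 281474976710656 281474976710656 0) t4 fun t5 =>
  AF.addK v0 wa fun t6 =>
  AF.scalK 281475782017024 vwa fun t7 =>
  AF.subK t7 t2 fun t8 =>
  AF.mulK r t8 fun t9 =>
  AF.addK t6 t9 fun t10 =>
  AF.addK v1 wb fun t11 =>
  AF.scalK 281475782017024 vwb fun t12 =>
  AF.subK t12 t2 fun t13 =>
  AF.mulK r t13 fun t14 =>
  AF.addK t11 t14 fun t15 =>
  AF.addK t10 t15 fun t16 =>
  AF.scalK 281474708275200 t16 fun t17 =>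
  AF.mulK t10 t10 fun t18 =>
  AF.mulK t15 t15 fun t19 =>
  AF.addK t18 t19 fun t20 =>
  AF.mulK t17 t17 fun t21 =>
  AF.addK t20 t21 fun t22 =>
  AF.mulK t10 t15 fun t23 =>
  AF.mulK t23 t17 fun t24 =>
  AF.scalK 281475782017024 t24 fun t25 =>
  AF.mulK t2 c1 fun t26 =>
  AF.addK t26 c2 fun t27 =>
  AF.addK sa sb fun t28 =>
  AF.addK t28 sc fun t29 =>
  AF.addK t29 ta fun t30 =>
  AF.addK t30 tb fun t31 =>
  AF.addK t31 tc fun t32 =>
  AF.mulK r t32 fun t33 =>
  AF.scalK 281475782017024 t33 fun t34 =>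
  AF.addK t27 t34 fun t35 =>
  AF.invK t5 fun t36 =>
  AF.mulK t36 t36 fun t37 =>
  AF.mulK t36 t37 fun t38 =>
  AF.mulK t22 t22 fun t39 =>
  AF.mulK t2 t2 fun t40 =>
  AF.mulK r2 t40 fun t41 =>
  AF.mulK t35 t36 fun t42 =>
  AF.mulK t41 t42 fun t43 =>
  AF.scalK 281475513581568 t43 fun t44 =>
  AF.scalK 281474983788544 t39 fun t45 =>
  AF.mulK r t36 fun t46 =>
  AF.mulK t22 t25 fun t47 =>
  AF.mulK t46 t47 fun t48 =>
  AF.scalK 281475030188032 t48 fun t49 =>
  AF.subK t45 t49 fun t50 =>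
  AF.mulK r2 t37 fun t51 =>
  AF.mulK t22 t39 fun t52 =>
  AF.mulK t51 t52 fun t53 =>
  AF.scalK 281475000303616 t53 fun t54 =>
  AF.addK t50 t54 fun t55 =>
  AF.mulK t38 t55 fun t56 =>
  AF.addK t44 t56 fun t57 =>
  k t57

open Ex in
/-- The main expression for chart 0. -/
noncomputable def K0 : Ex :=
  (l (c 281475245146112) (l (v 2) (l (k 281474708275200 (a (c 281475245146112) (v 3))) (l (k 281474708275200 (a (v 5) (v 6))) (l (m (v 4) (v 4)) (l (m (v 4) (v 4)) (l (m (v 4) (v 4)) (l (m (v 4) (v 4)) (l (m (v 10) (v 10)) (l (m (v 12) (v 12)) (l (m (v 6) (v 6)) (l (a (a (v 5) (v 4)) (v 3)) (l (a (a (v 3) (v 2)) (v 1)) (l (k 281475782017024 (m (m (v 12) (v 11)) (v 10))) (l (k 281475782017024 (m (m (v 16) (v 17)) (v 10))) (l (a (v 3) (v 2)) (l (m (v 4) (v 3)) (l (s (c 281475245146112) (k 281475379363840 (m (v 12) (v 1)))) (l (k 281475178037248 (m (v 13) (v 1))) (l (m (v 7) (v 7)) (l (m (v 7) (v 7)) (l (m (v 20) (v 23)) (l (m (v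 21) (v 25)) (l (m (v 22) (v 19)) (l (m (v 22) (v 26)) (l (m (v 23) (v 28)) (l (m (v 24) (v 22)) (l (m (v 24) (v 29)) (l (m (v 25) (v 31)) (l (m (v 26) (v 25)) (l (m (v 24) (v 32)) (l (m (v 25) (v 34)) (l (m (v 26) (v 28)) (l (m (v 26) (v 35)) (l (m (v 27) (v 37)) (l (m (v 28) (v 31)) (l (m (v 28) (v 38)) (l (m (v 29) (v 40)) (l (m (v 30) (v 34)) (l (m (v 38) (v 30)) (l (m (v 39) (v 30)) (l (m (v 40) (v 30)) (l (m (v 40) (v 33)) (l (m (v 41) (v 33)) (l (m (v 42) (v 33)) (l (m (v 42) (v 36)) (l (m (v 43) (v 36)) (l (m (v 44) (v 36)) (l (s (a (a (s (v 31) (k 281475782017024 (m (v 43) (m (v 31) (v 32))))) (k 281476587323392 (m (v 48) (a (m (v 35) (v 34)) (m (v 36) (v 33)))))) (k 281476587323392 (a (s (k 281474990800896 (a (v 28) (v 27))) (k 281475127902208 (m (v 48) (a (m (v 36) (v 34)) (m (v 35) (v 33)))))) (k 281475071082496 (m (v 43) (a (m (v 28) (v 36)) (m (v 27) (v 35)))))))) (k 281474977103872 (m (v 32) (v 32)))) (s (v 0)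 (a (a (a (a (a (l (a (a (v 27) (v 23)) (v 19)) (l (a (c 281475245146112) (k 281475782017024 (m (v 45) (v 0)))) (l (a (a (v 50) (v 53)) (m (v 51) (s (k 281475782017024 (v 29)) (v 1)))) (l (a (a (v 50) (v 55)) (m (v 52) (s (k 281475782017024 (v 26)) (v 2)))) (l (k 281474708275200 (a (v 1) (v 0))) (l (a (a (m (v 2) (v 2)) (m (v 1) (v 1))) (m (v 0) (v 0))) (l (k 281475782017024 (m (m (v 3) (v 2)) (v 1))) (l (a (a (m (v 6) (v 38)) (v 37)) (k 281475782017024 (m (v 56) (a (a (a (a (a (v 25) (v 21)) (v 17)) (v 16)) (v 12)) (v 8))))) (l (i (v 6)) (l (m (v 0) (v 0)) (l (m (v 1) (v 0)) (l (m (v 5) (v 5)) (a (k 281475513581568 (m (m (v 56) (m (v 11) (v 11))) (m (v 4) (v 3)))) (m (v 1) (a (s (k 281474983788544 (v 0)) (k 281475030188032 (m (m (v 61) (v 3)) (m (v 6) (v 5))))) (k 281475000303616 (m (m (v 56) (v 2)) (m (v 6) (v 0))))))))))))))))))) (l (a (a (v 27) (v 22)) (v 20)) (l (a (c 281475245146112) (k 281475782017024 (m (v 45) (v 0))))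 (l (a (a (v 50) (v 53)) (m (v 51) (s (k 281475782017024 (v 29)) (v 1)))) (l (a (a (v 50) (v 48)) (m (v 52) (s (k 281475782017024 (v 25)) (v 2)))) (l (k 281474708275200 (a (v 1) (v 0))) (l (a (a (m (v 2) (v 2)) (m (v 1) (v 1))) (m (v 0) (v 0))) (l (k 281475782017024 (m (m (v 3) (v 2)) (v 1))) (l (a (a (m (v 6) (v 38)) (v 37)) (k 281475782017024 (m (v 56) (a (a (a (a (a (v 25) (v 20)) (v 18)) (v 16)) (v 11)) (v 9))))) (l (i (v 6)) (l (m (v 0) (v 0)) (l (m (v 1) (v 0)) (l (m (v 5) (v 5)) (a (k 281475513581568 (m (m (v 56) (m (v 11) (v 11))) (m (v 4) (v 3)))) (m (v 1) (a (s (k 281474983788544 (v 0)) (k 281475030188032 (m (m (v 61) (v 3)) (m (v 6) (v 5))))) (k 281475000303616 (m (m (v 56) (v 2)) (m (v 6) (v 0)))))))))))))))))))) (l (a (a (v 26) (v 24)) (v 19)) (l (a (c 281475245146112) (k 281475782017024 (m (v 45) (v 0)))) (l (a (a (v 50) (v 54)) (m (v 51) (s (k 281475782017024 (v 28)) (v 1)))) (l (a (a (v 50) (v 54)) (m (v 52)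 (s (k 281475782017024 (v 27)) (v 2)))) (l (k 281474708275200 (a (v 1) (v 0))) (l (a (a (m (v 2) (v 2)) (m (v 1) (v 1))) (m (v 0) (v 0))) (l (k 281475782017024 (m (m (v 3) (v 2)) (v 1))) (l (a (a (m (v 6) (v 38)) (v 37)) (k 281475782017024 (m (v 56) (a (a (a (a (a (v 24) (v 22)) (v 17)) (v 15)) (v 13)) (v 8))))) (l (i (v 6)) (l (m (v 0) (v 0)) (l (m (v 1) (v 0)) (l (m (v 5) (v 5)) (a (k 281475513581568 (m (m (v 56) (m (v 11) (v 11))) (m (v 4) (v 3)))) (m (v 1) (a (s (k 281474983788544 (v 0)) (k 281475030188032 (m (m (v 61) (v 3)) (m (v 6) (v 5))))) (k 281475000303616 (m (m (v 56) (v 2)) (m (v 6) (v 0)))))))))))))))))))) (l (a (a (v 26) (v 22)) (v 21)) (l (a (c 281475245146112) (k 281475782017024 (m (v 45) (v 0)))) (l (a (a (v 50) (v 54)) (m (v 51) (s (k 281475782017024 (v 28)) (v 1)))) (l (a (a (v 50) (v 48)) (m (v 52) (s (k 281475782017024 (v 25)) (v 2)))) (l (k 281474708275200 (a (v 1) (v 0))) (l (a (a (m (v 2) (v 2)) (m (v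 1) (v 1))) (m (v 0) (v 0))) (l (k 281475782017024 (m (m (v 3) (v 2)) (v 1))) (l (a (a (m (v 6) (v 38)) (v 37)) (k 281475782017024 (m (v 56) (a (a (a (a (a (v 24) (v 20)) (v 19)) (v 15)) (v 11)) (v 10))))) (l (i (v 6)) (l (m (v 0) (v 0)) (l (m (v 1) (v 0)) (l (m (v 5) (v 5)) (a (k 281475513581568 (m (m (v 56) (m (v 11) (v 11))) (m (v 4) (v 3)))) (m (v 1) (a (s (k 281474983788544 (v 0)) (k 281475030188032 (m (m (v 61) (v 3)) (m (v 6) (v 5))))) (k 281475000303616 (m (m (v 56) (v 2)) (m (v 6) (v 0)))))))))))))))))))) (l (a (a (v 25) (v 24)) (v 20)) (l (a (c 281475245146112) (k 281475782017024 (m (v 45) (v 0)))) (l (a (a (v 50) (v 47)) (m (v 51) (s (k 281475782017024 (v 27)) (v 1)))) (l (a (a (v 50) (v 54)) (m (v 52) (s (k 281475782017024 (v 27)) (v 2)))) (l (k 281474708275200 (a (v 1) (v 0))) (l (a (a (m (v 2) (v 2)) (m (v 1) (v 1))) (m (v 0) (v 0))) (l (k 281475782017024 (m (m (v 3) (v 2)) (v 1))) (l (a (a (m (v 6) (v 38)) (v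 37)) (k 281475782017024 (m (v 56) (a (a (a (a (a (v 23) (v 22)) (v 18)) (v 14)) (v 13)) (v 9))))) (l (i (v 6)) (l (m (v 0) (v 0)) (l (m (v 1) (v 0)) (l (m (v 5) (v 5)) (a (k 281475513581568 (m (m (v 56) (m (v 11) (v 11))) (m (v 4) (v 3)))) (m (v 1) (a (s (k 281474983788544 (v 0)) (k 281475030188032 (m (m (v 61) (v 3)) (m (v 6) (v 5))))) (k 281475000303616 (m (m (v 56) (v 2)) (m (v 6) (v 0)))))))))))))))))))) (l (a (a (v 25) (v 23)) (v 21)) (l (a (c 281475245146112) (k 281475782017024 (m (v 45) (v 0)))) (l (a (a (v 50) (v 47)) (m (v 51) (s (k 281475782017024 (v 27)) (v 1)))) (l (a (a (v 50) (v 55)) (m (v 52) (s (k 281475782017024 (v 26)) (v 2)))) (l (k 281474708275200 (a (v 1) (v 0))) (l (a (a (m (v 2) (v 2)) (m (v 1) (v 1))) (m (v 0) (v 0))) (l (k 281475782017024 (m (m (v 3) (v 2)) (v 1))) (l (a (a (m (v 6) (v 38)) (v 37)) (k 281475782017024 (m (v 56) (a (a (a (a (a (v 23) (v 21)) (v 19)) (v 14)) (v 12)) (v 10))))) (l (i (v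 6)) (l (m (v 0) (v 0)) (l (m (v 1) (v 0)) (l (m (v 5) (v 5)) (a (k 281475513581568 (m (m (v 56) (m (v 11) (v 11))) (m (v 4) (v 3)))) (m (v 1) (a (s (k 281474983788544 (v 0)) (k 281475030188032 (m (m (v 61) (v 3)) (m (v 6) (v 5))))) (k 281475000303616 (m (m (v 56) (v 2)) (m (v 6) (v 0))))))))))))))))))))))))))))))))))))))))))))))))))))))))))))))))))))))

open Ex in
/-- The side conditions for chart 0. -/
noncomputable def gs0 : List Ex :=
  [(s (v 2) (v 3)),
   (a (v 2) (k 281475513581568 (v 3))),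
   (s (c 281475245146112) (v 2)),
   (s (s (c 281475245146112) (v 2)) (v 3)),
   (s (c 281475166523392) (k 281475782017024 (m (v 0) (a (c 281475245146112) (v 1))))),
   (s (c 281475166523392) (k 281475782017024 (m (v 0) (a (v 2) (v 3)))))]

/-- The direct form of the main expression for chart 0. -/
noncomputable def D0 (r p w0 w1 : AF) (k : AF → Bool) : Bool :=
  AF.addK (AF.mk 281475245146112 281474976710656 281474976710656 281474976710656 281474976710656 0) p fun t1 =>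
  AF.scalK 281474708275200 t1 fun t2 =>
  AF.addK w0 w1 fun t3 =>
  AF.scalK 281474708275200 t3 fun t4 =>
  AF.mulK r r fun t5 =>
  AF.mulK (AF.mk 281475245146112 281474976710656 281474976710656 281474976710656 281474976710656 0) (AF.mk 281475245146112 281474976710656 281474976710656 281474976710656 281474976710656 0) fun t6 =>
  AF.mulK p p fun t7 =>
  AF.mulK t2 t2 fun t8 =>
  AF.mulK w0 w0 fun t9 =>
  AF.mulK w1 w1 fun t10 =>
  AF.mulK t4 t4 fun t11 =>
  AF.addK t6 t7 fun t12 =>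
  AF.addK t12 t8 fun t13 =>
  AF.addK t9 t10 fun t14 =>
  AF.addK t14 t11 fun t15 =>
  AF.mulK (AF.mk 281475245146112 281474976710656 281474976710656 281474976710656 281474976710656 0) p fun t16 =>
  AF.mulK t16 t2 fun t17 =>
  AF.scalK 281475782017024 t17 fun t18 =>
  AF.mulK w0 w1 fun t19 =>
  AF.mulK t19 t4 fun t20 =>
  AF.scalK 281475782017024 t20 fun t21 =>
  AF.addK t13 t15 fun t22 =>
  AF.mulK t13 t15 fun t23 =>
  AF.mulK t5 t22 fun t24 =>
  AF.scalK 281475379363840 t24 fun t25 =>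
  AF.subK (AF.mk 281475245146112 281474976710656 281474976710656 281474976710656 281474976710656 0) t25 fun t26 =>
  AF.mulK t5 t23 fun t27 =>
  AF.scalK 281475178037248 t27 fun t28 =>
  AF.mulK t13 t13 fun t29 =>
  AF.mulK t15 t15 fun t30 =>
  AF.mulK (AF.mk 281475245146112 281474976710656 281474976710656 281474976710656 281474976710656 0) w0 fun t31 =>
  AF.mulK (AF.mk 281475245146112 281474976710656 281474976710656 281474976710656 281474976710656 0) w1 fun t32 =>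
  AF.mulK (AF.mk 281475245146112 281474976710656 281474976710656 281474976710656 281474976710656 0) t4 fun t33 =>
  AF.mulK p w0 fun t34 =>
  AF.mulK p w1 fun t35 =>
  AF.mulK p t4 fun t36 =>
  AF.mulK t2 w0 fun t37 =>
  AF.mulK t2 w1 fun t38 =>
  AF.mulK t2 t4 fun t39 =>
  AF.mulK t6 w0 fun t40 =>
  AF.mulK t6 w1 fun t41 =>
  AF.mulK t6 t4 fun t42 =>
  AF.mulK t7 w0 fun t43 =>
  AF.mulK t7 w1 fun t44 =>
  AF.mulK t7 t4 fun t45 =>
  AF.mulK t8 w0 fun t46 =>
  AF.mulK t8 w1 fun t47 =>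
  AF.mulK t8 t4 fun t48 =>
  AF.mulK (AF.mk 281475245146112 281474976710656 281474976710656 281474976710656 281474976710656 0) t9 fun t49 =>
  AF.mulK (AF.mk 281475245146112 281474976710656 281474976710656 281474976710656 281474976710656 0) t10 fun t50 =>
  AF.mulK (AF.mk 281475245146112 281474976710656 281474976710656 281474976710656 281474976710656 0) t11 fun t51 =>
  AF.mulK p t9 fun t52 =>
  AF.mulK p t10 fun t53 =>
  AF.mulK p t11 fun t54 =>
  AF.mulK t2 t9 fun t55 =>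
  AF.mulK t2 t10 fun t56 =>
  AF.mulK t2 t11 fun t57 =>
  AF.mulK t23 t22 fun t58 =>
  AF.mulK t5 t58 fun t59 =>
  AF.scalK 281475782017024 t59 fun t60 =>
  AF.subK t23 t60 fun t61 =>
  AF.mulK t15 t18 fun t62 =>
  AF.mulK t13 t21 fun t63 =>
  AF.addK t62 t63 fun t64 =>
  AF.mulK r t64 fun t65 =>
  AF.scalK 281476587323392 t65 fun t66 =>
  AF.addK t61 t66 fun t67 =>
  AF.addK t29 t30 fun t68 =>
  AF.scalK 281474990800896 t68 fun t69 =>
  AF.mulK t13 t18 fun t70 =>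
  AF.mulK t15 t21 fun t71 =>
  AF.addK t70 t71 fun t72 =>
  AF.mulK r t72 fun t73 =>
  AF.scalK 281475127902208 t73 fun t74 =>
  AF.subK t69 t74 fun t75 =>
  AF.mulK t29 t13 fun t76 =>
  AF.mulK t30 t15 fun t77 =>
  AF.addK t76 t77 fun t78 =>
  AF.mulK t5 t78 fun t79 =>
  AF.scalK 281475071082496 t79 fun t80 =>
  AF.addK t75 t80 fun t81 =>
  AF.scalK 281476587323392 t81 fun t82 =>
  AF.addK t67 t82 fun t83 =>
  AF.mulK t22 t22 fun t84 =>
  AF.scalK 281474977103872 t84 fun t85 =>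
  AF.subK t83 t85 fun t86 =>
  grp (AF.mk 281475245146112 281474976710656 281474976710656 281474976710656 281474976710656 0) p t2 w0 w1 t4 r t5 t26 t28 t31 t35 t39 t40 t44 t48 t49 t53 t57 fun t87 =>
  grp (AF.mk 281475245146112 281474976710656 281474976710656 281474976710656 281474976710656 0) p t2 w0 t4 w1 r t5 t26 t28 t31 t36 t38 t40 t45 t47 t49 t54 t56 fun t88 =>
  AF.addK t87 t88 fun t89 =>
  grp (AF.mk 281475245146112 281474976710656 281474976710656 281474976710656 281474976710656 0) p t2 w1 w0 t4 r t5 t26 t28 t32 t34 t39 t41 t43 t48 t50 t52 t57 fun t90 =>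
  AF.addK t89 t90 fun t91 =>
  grp (AF.mk 281475245146112 281474976710656 281474976710656 281474976710656 281474976710656 0) p t2 w1 t4 w0 r t5 t26 t28 t32 t36 t37 t41 t45 t46 t50 t54 t55 fun t92 =>
  AF.addK t91 t92 fun t93 =>
  grp (AF.mk 281475245146112 281474976710656 281474976710656 281474976710656 281474976710656 0) p t2 t4 w0 w1 r t5 t26 t28 t33 t34 t38 t42 t43 t47 t51 t52 t56 fun t94 =>
  AF.addK t93 t94 fun t95 =>
  grp (AF.mk 281475245146112 281474976710656 281474976710656 281474976710656 281474976710656 0) p t2 t4 w1 w0 r t5 t26 t28 t33 t35 t37 t42 t44 t46 t51 t53 t55 fun t96 =>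
  AF.addK t95 t96 fun t97 =>
  AF.subK t86 t97 fun t98 =>
  k t98

/-- The test on a box for chart 0. -/
noncomputable def T0 (r p w0 w1 : AF) : Bool := D0 r p w0 w1 AF.nonnegB

/-- The root box for chart 0. -/
def root0 : Bx := Bx.mk 281475043819520 67108864 281474909601792 67108864 281475110928384 134217728 281474976710656 134217728

open Ex in
/-- The main expression for chart 1. -/
noncomputable def K1 : Ex :=
  (l (s (c 281475245146112) (v 1)) (l (v 2) (l (c 281474708275200) (l (k 281474708275200 (a (v 5) (v 6))) (l (m (v 4) (v 4)) (l (m (v 4) (v 4)) (l (m (v 4) (v 4)) (l (m (v 4) (v 4)) (l (m (v 10) (v 10)) (l (m (v 12) (v 12)) (l (m (v 6) (v 6)) (l (a (a (v 5) (v 4)) (v 3)) (l (a (a (v 3) (v 2)) (v 1)) (l (k 281475782017024 (m (m (v 12) (v 11)) (v 10))) (l (k 281475782017024 (m (m (v 16) (v 17)) (v 10))) (l (a (v 3) (v 2)) (l (m (v 4) (v 3)) (l (s (c 281475245146112) (k 281475379363840 (m (v 12) (v 1)))) (l (k 281475178037248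 (m (v 13) (v 1))) (l (m (v 7) (v 7)) (l (m (v 7) (v 7)) (l (m (v 20) (v 23)) (l (m (v 21) (v 25)) (l (m (v 22) (v 19)) (l (m (v 22) (v 26)) (l (m (v 23) (v 28)) (l (m (v 24) (v 22)) (l (m (v 24) (v 29)) (l (m (v 25) (v 31)) (l (m (v 26) (v 25)) (l (m (v 24) (v 32)) (l (m (v 25) (v 34)) (l (m (v 26) (v 28)) (l (m (v 26) (v 35)) (l (m (v 27) (v 37)) (l (m (v 28) (v 31)) (l (m (v 28) (v 38)) (l (m (v 29) (v 40)) (l (m (v 30) (v 34)) (l (m (v 38) (v 30)) (l (m (v 39) (v 30)) (l (m (v 40) (v 30)) (l (m (v 40) (v 33)) (l (m (v 41) (v 33)) (l (m (v 42) (v 33)) (l (m (v 42) (v 36)) (l (m (v 43) (v 36)) (l (m (v 44) (v 36)) (l (s (a (a (s (v 31) (k 281475782017024 (m (v 43) (m (v 31) (v 32))))) (k 281476587323392 (m (v 48) (a (m (v 35) (v 34)) (m (v 36) (v 33)))))) (k 281476587323392 (a (s (k 281474990800896 (a (v 28) (v 27))) (k 281475127902208 (m (v 48) (a (m (v 36) (v 34)) (m (v 35) (v 33)))))) (k 281475071082496 (m (v 43) (a (m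 (v 28) (v 36)) (m (v 27) (v 35)))))))) (k 281474977103872 (m (v 32) (v 32)))) (s (v 0) (a (a (a (a (a (l (a (a (v 27) (v 23)) (v 19)) (l (a (c 281475245146112) (k 281475782017024 (m (v 45) (v 0)))) (l (a (a (v 50) (v 53)) (m (v 51) (s (k 281475782017024 (v 29)) (v 1)))) (l (a (a (v 50) (v 55)) (m (v 52) (s (k 281475782017024 (v 26)) (v 2)))) (l (k 281474708275200 (a (v 1) (v 0))) (l (a (a (m (v 2) (v 2)) (m (v 1) (v 1))) (m (v 0) (v 0))) (l (k 281475782017024 (m (m (v 3) (v 2)) (v 1))) (l (a (a (m (v 6) (v 38)) (v 37)) (k 281475782017024 (m (v 56) (a (a (a (a (a (v 25) (v 21)) (v 17)) (v 16)) (v 12)) (v 8))))) (l (i (v 6)) (l (m (v 0) (v 0)) (l (m (v 1) (v 0)) (l (m (v 5) (v 5)) (a (k 281475513581568 (m (m (v 56) (m (v 11) (v 11))) (m (v 4) (v 3)))) (m (v 1) (a (s (k 281474983788544 (v 0)) (k 281475030188032 (m (m (v 61) (v 3)) (m (v 6) (v 5))))) (k 281475000303616 (m (m (v 56) (v 2)) (m (v 6) (v 0))))))))))))))))))) (l (a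 (a (v 27) (v 22)) (v 20)) (l (a (c 281475245146112) (k 281475782017024 (m (v 45) (v 0)))) (l (a (a (v 50) (v 53)) (m (v 51) (s (k 281475782017024 (v 29)) (v 1)))) (l (a (a (v 50) (v 48)) (m (v 52) (s (k 281475782017024 (v 25)) (v 2)))) (l (k 281474708275200 (a (v 1) (v 0))) (l (a (a (m (v 2) (v 2)) (m (v 1) (v 1))) (m (v 0) (v 0))) (l (k 281475782017024 (m (m (v 3) (v 2)) (v 1))) (l (a (a (m (v 6) (v 38)) (v 37)) (k 281475782017024 (m (v 56) (a (a (a (a (a (v 25) (v 20)) (v 18)) (v 16)) (v 11)) (v 9))))) (l (i (v 6)) (l (m (v 0) (v 0)) (l (m (v 1) (v 0)) (l (m (v 5) (v 5)) (a (k 281475513581568 (m (m (v 56) (m (v 11) (v 11))) (m (v 4) (v 3)))) (m (v 1) (a (s (k 281474983788544 (v 0)) (k 281475030188032 (m (m (v 61) (v 3)) (m (v 6) (v 5))))) (k 281475000303616 (m (m (v 56) (v 2)) (m (v 6) (v 0)))))))))))))))))))) (l (a (a (v 26) (v 24)) (v 19)) (l (a (c 281475245146112) (k 281475782017024 (m (v 45) (v 0)))) (l (a (a (v 50) (v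 54)) (m (v 51) (s (k 281475782017024 (v 28)) (v 1)))) (l (a (a (v 50) (v 54)) (m (v 52) (s (k 281475782017024 (v 27)) (v 2)))) (l (k 281474708275200 (a (v 1) (v 0))) (l (a (a (m (v 2) (v 2)) (m (v 1) (v 1))) (m (v 0) (v 0))) (l (k 281475782017024 (m (m (v 3) (v 2)) (v 1))) (l (a (a (m (v 6) (v 38)) (v 37)) (k 281475782017024 (m (v 56) (a (a (a (a (a (v 24) (v 22)) (v 17)) (v 15)) (v 13)) (v 8))))) (l (i (v 6)) (l (m (v 0) (v 0)) (l (m (v 1) (v 0)) (l (m (v 5) (v 5)) (a (k 281475513581568 (m (m (v 56) (m (v 11) (v 11))) (m (v 4) (v 3)))) (m (v 1) (a (s (k 281474983788544 (v 0)) (k 281475030188032 (m (m (v 61) (v 3)) (m (v 6) (v 5))))) (k 281475000303616 (m (m (v 56) (v 2)) (m (v 6) (v 0)))))))))))))))))))) (l (a (a (v 26) (v 22)) (v 21)) (l (a (c 281475245146112) (k 281475782017024 (m (v 45) (v 0)))) (l (a (a (v 50) (v 54)) (m (v 51) (s (k 281475782017024 (v 28)) (v 1)))) (l (a (a (v 50) (v 48)) (m (v 52) (s (k 281475782017024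 (v 25)) (v 2)))) (l (k 281474708275200 (a (v 1) (v 0))) (l (a (a (m (v 2) (v 2)) (m (v 1) (v 1))) (m (v 0) (v 0))) (l (k 281475782017024 (m (m (v 3) (v 2)) (v 1))) (l (a (a (m (v 6) (v 38)) (v 37)) (k 281475782017024 (m (v 56) (a (a (a (a (a (v 24) (v 20)) (v 19)) (v 15)) (v 11)) (v 10))))) (l (i (v 6)) (l (m (v 0) (v 0)) (l (m (v 1) (v 0)) (l (m (v 5) (v 5)) (a (k 281475513581568 (m (m (v 56) (m (v 11) (v 11))) (m (v 4) (v 3)))) (m (v 1) (a (s (k 281474983788544 (v 0)) (k 281475030188032 (m (m (v 61) (v 3)) (m (v 6) (v 5))))) (k 281475000303616 (m (m (v 56) (v 2)) (m (v 6) (v 0)))))))))))))))))))) (l (a (a (v 25) (v 24)) (v 20)) (l (a (c 281475245146112) (k 281475782017024 (m (v 45) (v 0)))) (l (a (a (v 50) (v 47)) (m (v 51) (s (k 281475782017024 (v 27)) (v 1)))) (l (a (a (v 50) (v 54)) (m (v 52) (s (k 281475782017024 (v 27)) (v 2)))) (l (k 281474708275200 (a (v 1) (v 0))) (l (a (a (m (v 2) (v 2)) (m (v 1) (v 1))) (m (v 0)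 (v 0))) (l (k 281475782017024 (m (m (v 3) (v 2)) (v 1))) (l (a (a (m (v 6) (v 38)) (v 37)) (k 281475782017024 (m (v 56) (a (a (a (a (a (v 23) (v 22)) (v 18)) (v 14)) (v 13)) (v 9))))) (l (i (v 6)) (l (m (v 0) (v 0)) (l (m (v 1) (v 0)) (l (m (v 5) (v 5)) (a (k 281475513581568 (m (m (v 56) (m (v 11) (v 11))) (m (v 4) (v 3)))) (m (v 1) (a (s (k 281474983788544 (v 0)) (k 281475030188032 (m (m (v 61) (v 3)) (m (v 6) (v 5))))) (k 281475000303616 (m (m (v 56) (v 2)) (m (v 6) (v 0)))))))))))))))))))) (l (a (a (v 25) (v 23)) (v 21)) (l (a (c 281475245146112) (k 281475782017024 (m (v 45) (v 0)))) (l (a (a (v 50) (v 47)) (m (v 51) (s (k 281475782017024 (v 27)) (v 1)))) (l (a (a (v 50) (v 55)) (m (v 52) (s (k 281475782017024 (v 26)) (v 2)))) (l (k 281474708275200 (a (v 1) (v 0))) (l (a (a (m (v 2) (v 2)) (m (v 1) (v 1))) (m (v 0) (v 0))) (l (k 281475782017024 (m (m (v 3) (v 2)) (v 1))) (l (a (a (m (v 6) (v 38)) (v 37)) (k 281475782017024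 (m (v 56) (a (a (a (a (a (v 23) (v 21)) (v 19)) (v 14)) (v 12)) (v 10))))) (l (i (v 6)) (l (m (v 0) (v 0)) (l (m (v 1) (v 0)) (l (m (v 5) (v 5)) (a (k 281475513581568 (m (m (v 56) (m (v 11) (v 11))) (m (v 4) (v 3)))) (m (v 1) (a (s (k 281474983788544 (v 0)) (k 281475030188032 (m (m (v 61) (v 3)) (m (v 6) (v 5))))) (k 281475000303616 (m (m (v 56) (v 2)) (m (v 6) (v 0))))))))))))))))))))))))))))))))))))))))))))))))))))))))))))))))))))))

open Ex in
/-- The side conditions for chart 1. -/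
noncomputable def gs1 : List Ex :=
  [(s (v 2) (v 3)),
   (a (v 2) (k 281475513581568 (v 3))),
   (s (c 281475245146112) (v 2)),
   (s (s (c 281475245146112) (v 2)) (v 3)),
   (s (c 281475166523392) (k 281475782017024 (v 0))),
   (s (c 281475166523392) (k 281475782017024 (m (v 0) (a (v 2) (v 3)))))]

/-- The direct form of the main expression for chart 1. -/
noncomputable def D1 (r p w0 w1 : AF) (k : AF → Bool) : Bool :=
  AF.subK (AF.mk 281475245146112 281474976710656 281474976710656 281474976710656 281474976710656 0) p fun t1 =>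
  AF.addK w0 w1 fun t2 =>
  AF.scalK 281474708275200 t2 fun t3 =>
  AF.mulK r r fun t4 =>
  AF.mulK t1 t1 fun t5 =>
  AF.mulK p p fun t6 =>
  AF.mulK (AF.mk 281474708275200 281474976710656 281474976710656 281474976710656 281474976710656 0) (AF.mk 281474708275200 281474976710656 281474976710656 281474976710656 281474976710656 0) fun t7 =>
  AF.mulK w0 w0 fun t8 =>
  AF.mulK w1 w1 fun t9 =>
  AF.mulK t3 t3 fun t10 =>
  AF.addK t5 t6 fun t11 =>
  AF.addK t11 t7 fun t12 =>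
  AF.addK t8 t9 fun t13 =>
  AF.addK t13 t10 fun t14 =>
  AF.mulK t1 p fun t15 =>
  AF.mulK t15 (AF.mk 281474708275200 281474976710656 281474976710656 281474976710656 281474976710656 0) fun t16 =>
  AF.scalK 281475782017024 t16 fun t17 =>
  AF.mulK w0 w1 fun t18 =>
  AF.mulK t18 t3 fun t19 =>
  AF.scalK 281475782017024 t19 fun t20 =>
  AF.addK t12 t14 fun t21 =>
  AF.mulK t12 t14 fun t22 =>
  AF.mulK t4 t21 fun t23 =>
  AF.scalK 281475379363840 t23 fun t24 =>
  AF.subK (AF.mk 281475245146112 281474976710656 281474976710656 281474976710656 281474976710656 0) t24 fun t25 =>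
  AF.mulK t4 t22 fun t26 =>
  AF.scalK 281475178037248 t26 fun t27 =>
  AF.mulK t12 t12 fun t28 =>
  AF.mulK t14 t14 fun t29 =>
  AF.mulK t1 w0 fun t30 =>
  AF.mulK t1 w1 fun t31 =>
  AF.mulK t1 t3 fun t32 =>
  AF.mulK p w0 fun t33 =>
  AF.mulK p w1 fun t34 =>
  AF.mulK p t3 fun t35 =>
  AF.mulK (AF.mk 281474708275200 281474976710656 281474976710656 281474976710656 281474976710656 0) w0 fun t36 =>
  AF.mulK (AF.mk 281474708275200 281474976710656 281474976710656 281474976710656 281474976710656 0) w1 fun t37 =>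
  AF.mulK (AF.mk 281474708275200 281474976710656 281474976710656 281474976710656 281474976710656 0) t3 fun t38 =>
  AF.mulK t5 w0 fun t39 =>
  AF.mulK t5 w1 fun t40 =>
  AF.mulK t5 t3 fun t41 =>
  AF.mulK t6 w0 fun t42 =>
  AF.mulK t6 w1 fun t43 =>
  AF.mulK t6 t3 fun t44 =>
  AF.mulK t7 w0 fun t45 =>
  AF.mulK t7 w1 fun t46 =>
  AF.mulK t7 t3 fun t47 =>
  AF.mulK t1 t8 fun t48 =>
  AF.mulK t1 t9 fun t49 =>
  AF.mulK t1 t10 fun t50 =>
  AF.mulK p t8 fun t51 =>
  AF.mulK p t9 fun t52 =>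
  AF.mulK p t10 fun t53 =>
  AF.mulK (AF.mk 281474708275200 281474976710656 281474976710656 281474976710656 281474976710656 0) t8 fun t54 =>
  AF.mulK (AF.mk 281474708275200 281474976710656 281474976710656 281474976710656 281474976710656 0) t9 fun t55 =>
  AF.mulK (AF.mk 281474708275200 281474976710656 281474976710656 281474976710656 281474976710656 0) t10 fun t56 =>
  AF.mulK t22 t21 fun t57 =>
  AF.mulK t4 t57 fun t58 =>
  AF.scalK 281475782017024 t58 fun t59 =>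
  AF.subK t22 t59 fun t60 =>
  AF.mulK t14 t17 fun t61 =>
  AF.mulK t12 t20 fun t62 =>
  AF.addK t61 t62 fun t63 =>
  AF.mulK r t63 fun t64 =>
  AF.scalK 281476587323392 t64 fun t65 =>
  AF.addK t60 t65 fun t66 =>
  AF.addK t28 t29 fun t67 =>
  AF.scalK 281474990800896 t67 fun t68 =>
  AF.mulK t12 t17 fun t69 =>
  AF.mulK t14 t20 fun t70 =>
  AF.addK t69 t70 fun t71 =>
  AF.mulK r t71 fun t72 =>
  AF.scalK 281475127902208 t72 fun t73 =>
  AF.subK t68 t73 fun t74 =>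
  AF.mulK t28 t12 fun t75 =>
  AF.mulK t29 t14 fun t76 =>
  AF.addK t75 t76 fun t77 =>
  AF.mulK t4 t77 fun t78 =>
  AF.scalK 281475071082496 t78 fun t79 =>
  AF.addK t74 t79 fun t80 =>
  AF.scalK 281476587323392 t80 fun t81 =>
  AF.addK t66 t81 fun t82 =>
  AF.mulK t21 t21 fun t83 =>
  AF.scalK 281474977103872 t83 fun t84 =>
  AF.subK t82 t84 fun t85 =>
  grp t1 p (AF.mk 281474708275200 281474976710656 281474976710656 281474976710656 281474976710656 0) w0 w1 t3 r t4 t25 t27 t30 t34 t38 t39 t43 t47 t48 t52 t56 fun t86 =>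
  grp t1 p (AF.mk 281474708275200 281474976710656 281474976710656 281474976710656 281474976710656 0) w0 t3 w1 r t4 t25 t27 t30 t35 t37 t39 t44 t46 t48 t53 t55 fun t87 =>
  AF.addK t86 t87 fun t88 =>
  grp t1 p (AF.mk 281474708275200 281474976710656 281474976710656 281474976710656 281474976710656 0) w1 w0 t3 r t4 t25 t27 t31 t33 t38 t40 t42 t47 t49 t51 t56 fun t89 =>
  AF.addK t88 t89 fun t90 =>
  grp t1 p (AF.mk 281474708275200 281474976710656 281474976710656 281474976710656 281474976710656 0) w1 t3 w0 r t4 t25 t27 t31 t35 t36 t40 t44 t45 t49 t53 t54 fun t91 =>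
  AF.addK t90 t91 fun t92 =>
  grp t1 p (AF.mk 281474708275200 281474976710656 281474976710656 281474976710656 281474976710656 0) t3 w0 w1 r t4 t25 t27 t32 t33 t37 t41 t42 t46 t50 t51 t55 fun t93 =>
  AF.addK t92 t93 fun t94 =>
  grp t1 p (AF.mk 281474708275200 281474976710656 281474976710656 281474976710656 281474976710656 0) t3 w1 w0 r t4 t25 t27 t32 t34 t36 t41 t43 t45 t50 t52 t54 fun t95 =>
  AF.addK t94 t95 fun t96 =>
  AF.subK t85 t96 fun t97 =>
  k t97

/-- The test on a box for chart 1. -/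
noncomputable def T1 (r p w0 w1 : AF) : Bool := D1 r p w0 w1 AF.nonnegB

/-- The root box for chart 1. -/
def root1 : Bx := Bx.mk 281475043819520 67108864 281475043819520 67108864 281475110928384 134217728 281474976710656 134217728

end D2

end Vale.Agent.Lib.P154
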